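import Vale.Agent.P068.Bdl.B1

open Matroid
open Vale.Agent.P068

namespace Vale.Agent.Results.P068.ZFCCounterexample

theorem result :
    (¬ ∀ (α : Type) (M N : Matroid α), M.E = N.E → SatisfiesIntersection M N) ∧
    (¬ ∀ (α ι : Type) (E : Set α) (M : ι → Matroid α), (∀ i, (M i).E = E) →
      HasPackingCovering E M) ∧
    ∃ M N : Matroid ℕ, M.E = Set.univ ∧ N.E = Set.univ ∧ ¬ SatisfiesIntersection M N ∧
      ¬ HasPackingCovering Set.univ (fun b : Bool => if b then M else N✶) := by
  obtain ⟨M, N, hM, hN, hMN⟩ := counterexample_zfc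
  have hPC : ¬ HasPackingCovering Set.univ (fun b : Bool => if b then M else N✶) := by
    intro h
    rw [← hM] at h
    exact hMN (satisfiesIntersection_of_packingCovering M N (hM.trans hN.symm) h)
  refine ⟨fun h => hMN (h ℕ M N (hM.trans hN.symm)), fun h => hPC (h ℕ Bool _ _ ?_),
    M, N, hM, hN, hMN, hPC⟩
  intro b
  cases b
  · exact hN
  · exact hM

end Vale.Agent.Results.P068.ZFCCounterexample
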